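import Vale.Agent.P011.D4X.H691.Ch

/-!
Block D4X (helper691): the normal subgroup of the scalar multiples of the finite residual, and the
transport along changes of coordinates with `i` fixed.
-/

open NumberField Topology

set_option linter.unusedSectionVars false

namespace Vale.Agent.P011.D4X

open Vale.Agent.P011.MPQ Vale.Agent.P011.D4 Vale.Agent.P011.D4.Oct Vale.Agent.P011.E6

/-! ### The finite residual -/

theorem mem_fres {G : Type} [Group G] {x : G} :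
    x ∈ fres G ↔ ∀ N : Subgroup G, N.index ≠ 0 → x ∈ N := by
  rw [fres, Subgroup.mem_iInf]
  exact ⟨fun h N hN => h ⟨N, hN⟩, fun h N => h N.1 N.2⟩

theorem fres_map {G G' : Type} [Group G] [Group G'] (e : G ≃* G') {x : G} (hx : x ∈ fres G) :
    e x ∈ fres G' := by
  rw [mem_fres] at hx ⊢
  intro N hN
  have h := hx (N.comap (e : G →* G')) (by
    rw [Subgroup.index_comap_of_surjective N e.surjective]
    exact hN)
  exact h

theorem fres_top_iff {G : Type} [Group G] : fres G = ⊤ ↔ ∀ N : Subgroup G, N.index ≠ 0 → N = ⊤ := by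
  constructor
  · intro h N hN
    rw [eq_top_iff, ← h]
    intro x hx
    exact mem_fres.1 hx N hN
  · intro h
    rw [eq_top_iff]
    intro x _
    rw [mem_fres]
    intro N hN
    rw [h N hN]
    exact Subgroup.mem_top x

section

variable {E V V' : Type} [Field E] [AddCommGroup V] [AddCommGroup V'] [Module E V] [Module E V']

/-- Conjugation by a linear equivalence. -/
def cjE (Ψ : V' ≃ₗ[E] V) : (V' ≃ₗ[E] V') ≃* (V ≃ₗ[E] V) where
  toFun g := (Ψ.symm.trans g).trans Ψ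
  invFun g := (Ψ.trans g).trans Ψ.symm
  left_inv g := by
    apply LinearEquiv.ext
    intro x
    change Ψ.symm (Ψ (g (Ψ.symm (Ψ x)))) = g x
    rw [Ψ.symm_apply_apply, Ψ.symm_apply_apply]
  right_inv g := by
    apply LinearEquiv.ext
    intro x
    change Ψ (Ψ.symm (g (Ψ (Ψ.symm x)))) = g x
    rw [Ψ.apply_symm_apply, Ψ.apply_symm_apply]
  map_mul' g h := by
    apply LinearEquiv.ext
    intro x
    change Ψ (g (h (Ψ.symm x))) = Ψ (g (Ψ.symm (Ψ (h (Ψ.symm x)))))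
    rw [Ψ.symm_apply_apply]

theorem cjE_apply (Ψ : V' ≃ₗ[E] V) (g : V' ≃ₗ[E] V') (x : V') : cjE Ψ g (Ψ x) = Ψ (g x) := by
  change Ψ (g (Ψ.symm (Ψ x))) = _
  rw [Ψ.symm_apply_apply]

theorem cjE_apply' (Ψ : V' ≃ₗ[E] V) (g : V' ≃ₗ[E] V') (x : V) :
    cjE Ψ g x = Ψ (g (Ψ.symm x)) := rfl

theorem cjE_symm_apply (Ψ : V' ≃ₗ[E] V) (g : V ≃ₗ[E] V) (x : V') :
    Ψ ((cjE Ψ).symm g x) = g (Ψ x) := by
  change Ψ (Ψ.symm (g (Ψ x))) = _
  rw [Ψ.apply_symm_apply]

end

section model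

variable {k L E : Type} [Field k] [Field L] [Field E] [Algebra k L] [Algebra k E] [Algebra L E]
  [IsScalarTower k L E] {ρ σ : E ≃ₐ[k] E} {ρL : L ≃ₐ[k] L} {α : E}
  {a b c : kˣ} {q : Lˣ}

theorem mem_GT_of_kap_one {z : AT ρ σ α a b c q} (h : kap z = 1) : z.1 ∈ GT ρ σ α a b c q := by
  refine ⟨fun x y => ?_, z.2.2⟩
  have h1 := isKap_kap z x y
  rw [h, Units.val_one, map_one, one_smul] at h1
  exact h1

theorem GT_le_AT {g : OctL E a b c ≃ₗ[E] OctL E a b c} (h : g ∈ GT ρ σ α a b c q) :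
    g ∈ AT ρ σ α a b c q :=
  ⟨⟨1, fun x y => by rw [Units.val_one, map_one, one_smul]; exact h.1 x y⟩, h.2⟩

theorem kap_of_GT {g : OctL E a b c ≃ₗ[E] OctL E a b c} (h : g ∈ GT ρ σ α a b c q) :
    kap (⟨g, GT_le_AT h⟩ : AT ρ σ α a b c q) = 1 :=
  kap_eq fun x y => by rw [Units.val_one, map_one, one_smul]; exact h.1 x y

theorem kap_mul (z w : AT ρ σ α a b c q) : kap (z * w) = kap z * kap w :=
  map_mul (kapHom ρ σ α a b c q) z w

theorem kap_inv (z : AT ρ σ α a b c q) : kap z⁻¹ = (kap z)⁻¹ :=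
  map_inv (kapHom ρ σ α a b c q) z

theorem kap_one : kap (1 : AT ρ σ α a b c q) = 1 := map_one (kapHom ρ σ α a b c q)

theorem mem_Rs {g : OctL E a b c ≃ₗ[E] OctL E a b c} : g ∈ Rs ρ σ α a b c q ↔
    ∃ h : g ∈ GT ρ σ α a b c q, (⟨g, h⟩ : GT ρ σ α a b c q) ∈ fres (GT ρ σ α a b c q) := by
  rw [Rs, Subgroup.mem_map]
  constructor
  · rintro ⟨x, hx, rfl⟩
    exact ⟨x.2, hx⟩
  · rintro ⟨h, hx⟩
    exact ⟨_, hx, rfl⟩

theorem Rs_le : Rs ρ σ α a b c q ≤ GT ρ σ α a b c q := fun _ h => (mem_Rs.1 h).1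

/-- Conjugation of `GT` by an element of `AT`. -/
noncomputable def conjG (z : AT ρ σ α a b c q) : GT ρ σ α a b c q ≃* GT ρ σ α a b c q where
  toFun g := ⟨z.1 * g.1 * z.1⁻¹, mem_GT_of_kap_one (z := z * ⟨g.1, GT_le_AT g.2⟩ * z⁻¹) (by
    rw [kap_mul, kap_mul, kap_inv, kap_of_GT g.2, mul_one, mul_inv_cancel])⟩
  invFun g := ⟨z.1⁻¹ * g.1 * z.1, mem_GT_of_kap_one (z := z⁻¹ * ⟨g.1, GT_le_AT g.2⟩ * z) (by
    rw [kap_mul, kap_mul, kap_inv, kap_of_GT g.2, mul_one, inv_mul_cancel])⟩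
  left_inv g := by
    apply Subtype.ext
    change z.1⁻¹ * (z.1 * g.1 * z.1⁻¹) * z.1 = g.1
    group
  right_inv g := by
    apply Subtype.ext
    change z.1 * (z.1⁻¹ * g.1 * z.1) * z.1⁻¹ = g.1
    group
  map_mul' g h := by
    apply Subtype.ext
    change z.1 * (g.1 * h.1) * z.1⁻¹ = z.1 * g.1 * z.1⁻¹ * (z.1 * h.1 * z.1⁻¹)
    group

theorem conj_mem_Rs (z : AT ρ σ α a b c q) {g : OctL E a b c ≃ₗ[E] OctL E a b c}
    (h : g ∈ Rs ρ σ α a b c q) : z.1 * g * z.1⁻¹ ∈ Rs ρ σ α a b c q := by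
  obtain ⟨h1, h2⟩ := mem_Rs.1 h
  have h3 := fres_map (conjG z) h2
  exact mem_Rs.2 ⟨_, h3⟩

variable (H : Hy ρ σ ρL α a b c q)

include H

theorem Hy.exists_mu {κ : Lˣ} (hκ : κ ∈ SqL k L) :
    ∃ μ : Lˣ, (μ : L) = κ * ρL μ * ρL (ρL μ) := by
  obtain ⟨t, l, rfl⟩ := mem_SqL.1 hκ
  obtain ⟨n, hn⟩ := H.exists_norm l
  refine ⟨l * (up L (n * t))⁻¹, ?_⟩
  have e1 : (((up L (n * t))⁻¹ : Lˣ) : L) = (algebraMap k L (n : k) * algebraMap k L (t : k))⁻¹ := by
    rw [Units.val_inv_eq_inv_val]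
    congr 1
    change algebraMap k L ((n * t : kˣ) : k) = _
    rw [Units.val_mul, map_mul]
  have e2 : ((up L t : Lˣ) : L) = algebraMap k L (t : k) := rfl
  have hn0 : algebraMap k L (n : k) ≠ 0 :=
    (map_ne_zero_iff _ (algebraMap k L).injective).2 n.ne_zero
  have ht0 : algebraMap k L (t : k) ≠ 0 :=
    (map_ne_zero_iff _ (algebraMap k L).injective).2 t.ne_zero
  rw [Units.val_mul, Units.val_mul, Units.val_pow_eq_pow_val, e1, e2]
  simp only [map_mul, map_inv₀, AlgEquiv.commutes]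
  rw [hn]
  rw [hn] at hn0
  field_simp

theorem kap_scal (l : Lˣ) : (l : L) = kap (H.scal l) * ρL l * ρL (ρL l) := by
  have h1 : ρL (l : L) ≠ 0 := (map_ne_zero_iff ρL ρL.injective).2 l.ne_zero
  have h2 : ρL (ρL (l : L)) ≠ 0 := (map_ne_zero_iff ρL ρL.injective).2 h1
  have h3 := isKap_kap (H.scal l) 1 1
  rw [H.scal_apply, H.scal_apply, tri_smul_left, tri_smul_right, smul_smul, smul_smul, tri_one_one,
    H.ρL', H.ρL', ← map_mul, ← map_mul] at h3
  have h4 : (1 : OctL E a b c) ≠ 0 := by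
    intro h7
    have h8 := congrArg (fun x : OctL E a b c => x.fst.re) h7
    simp at h8
  exact (algebraMap L E).injective (smul_left_injective E h4 h3)

/-- An element of class one is a scalar times an element of `GT`. -/
theorem exists_scal {z : AT ρ σ α a b c q} {κ : Lˣ} (h : IsKap ρ z.1 κ) (hκ : κ ∈ SqL k L) :
    ∃ (l : Lˣ) (g : OctL E a b c ≃ₗ[E] OctL E a b c), g ∈ GT ρ σ α a b c q ∧
      ∀ x, z.1 x = algebraMap L E (l : L) • g x := by
  obtain ⟨μ, hμ⟩ := H.exists_mu hκ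
  have h1 : kap (H.scal μ) = κ := by
    have h2 := kap_scal H μ
    have h3 : ρL (μ : L) ≠ 0 := (map_ne_zero_iff ρL ρL.injective).2 μ.ne_zero
    have h4 : ρL (ρL (μ : L)) ≠ 0 := (map_ne_zero_iff ρL ρL.injective).2 h3
    apply Units.ext
    have h5 : (kap (H.scal μ) : L) * (ρL μ * ρL (ρL μ)) = κ * (ρL μ * ρL (ρL μ)) := by
      rw [← mul_assoc, ← mul_assoc, ← h2, ← hμ]
    exact mul_right_cancel₀ (mul_ne_zero h3 h4) h5
  refine ⟨μ, ((H.scal μ)⁻¹ * z : AT ρ σ α a b c q).1, mem_GT_of_kap_one ?_, fun x => ?_⟩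
  · rw [kap_mul, kap_inv, h1, kap_eq h, inv_mul_cancel]
  · rw [← H.scal_apply]
    change z.1 x = ((H.scal μ) * ((H.scal μ)⁻¹ * z) : AT ρ σ α a b c q).1 x
    rw [mul_inv_cancel_left]

/-- The scalars have class one. -/
theorem scal_mem_SqL (l : Lˣ) : kap (H.scal l) ∈ SqL k L := by
  obtain ⟨n, hn⟩ := H.exists_norm l
  rw [mem_SqL]
  refine ⟨n⁻¹, l, ?_⟩
  have h2 := kap_scal H l
  have h3 : ρL (l : L) ≠ 0 := (map_ne_zero_iff ρL ρL.injective).2 l.ne_zero
  have h4 : ρL (ρL (l : L)) ≠ 0 := (map_ne_zero_iff ρL ρL.injective).2 h3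
  apply Units.ext
  rw [Units.val_mul, Units.val_pow_eq_pow_val]
  have e1 : ((up L n⁻¹ : Lˣ) : L) = (algebraMap k L (n : k))⁻¹ := by
    change algebraMap k L ((n⁻¹ : kˣ) : k) = _
    rw [Units.val_inv_eq_inv_val, map_inv₀]
  rw [e1, hn]
  have h5 : (kap (H.scal l) : L) * (ρL l * ρL (ρL l)) = l := by rw [← mul_assoc, ← h2]
  have h6 : (l : L) ≠ 0 := l.ne_zero
  field_simp
  linear_combination h5

/-- The normal subgroup `N`. -/
def Hy.NA (H : Hy ρ σ ρL α a b c q) : Subgroup (AT ρ σ α a b c q) where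
  carrier := {z | IsN ρ σ α a b c q z}
  mul_mem' := by
    rintro z w ⟨l, g, hg, h1⟩ ⟨l', g', hg', h2⟩
    refine ⟨l * l', g * g', Subgroup.mul_mem _ hg hg', fun x => ?_⟩
    change z.1 (w.1 x) = _
    rw [h2, map_smul, h1, smul_smul, LinearEquiv.mul_apply, Units.val_mul, map_mul,
      mul_comm (algebraMap L E (l : L))]
  one_mem' := ⟨1, 1, Subgroup.one_mem _, fun x => by
    rw [Units.val_one, map_one, one_smul]; rfl⟩
  inv_mem' := by
    rintro z ⟨l, g, hg, h1⟩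
    refine ⟨l⁻¹, g⁻¹, Subgroup.inv_mem _ hg, fun x => ?_⟩
    have h2 : ∀ v, g (g⁻¹ v) = v := fun v => by
      rw [← LinearEquiv.mul_apply, mul_inv_cancel]; rfl
    have h3 : ∀ v, z.1 ((z⁻¹ : AT ρ σ α a b c q).1 v) = v := fun v => by
      change (z * z⁻¹ : AT ρ σ α a b c q).1 v = v
      rw [mul_inv_cancel]; rfl
    apply z.1.injective
    rw [h3, map_smul, h1, h2, smul_smul, ← map_mul, Units.inv_mul, map_one, one_smul]

theorem Hy.mem_NA {z : AT ρ σ α a b c q} : z ∈ H.NA ↔ IsN ρ σ α a b c q z := Iff.rfl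

instance Hy.NA_normal : H.NA.Normal := ⟨by
  rintro z ⟨l, g, hg, h1⟩ w
  refine ⟨l, w.1 * g * w.1⁻¹, conj_mem_Rs w hg, fun x => ?_⟩
  change w.1 (z.1 (w.1⁻¹ x)) = _
  rw [h1, map_smul]
  rfl⟩

theorem Hy.NA_le_ker : H.NA ≤ (clT ρ σ α a b c q).ker := by
  rintro z ⟨l, g, hg, h1⟩
  rw [MonoidHom.mem_ker, clT_eq_one_iff (isKap_kap z)]
  have h2 : z = H.scal l * ⟨g, GT_le_AT (Rs_le hg)⟩ := by
    apply Subtype.ext
    apply LinearEquiv.ext
    intro x
    rw [h1, ← H.scal_apply]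
    rfl
  rw [h2, kap_mul, kap_of_GT (Rs_le hg), mul_one]
  exact scal_mem_SqL H l

/-- The elements of `GT` which lie in `NA` lie in the finite residual, if so do the scalars of
`GT`. -/
theorem mem_of_isN (g : OctL E a b c ≃ₗ[E] OctL E a b c) (hg : g ∈ GT ρ σ α a b c q)
    (h : IsN ρ σ α a b c q ⟨g, GT_le_AT hg⟩) : g ∈ Rs ρ σ α a b c q := by
  obtain ⟨l, g', hg', h1⟩ := h
  have h1' : ∀ x, g x = algebraMap L E (l : L) • g' x := h1
  -- the scalar `l` has multiplier one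
  have hg2 := Rs_le hg'
  have h2 : algebraMap L E (l : L) = ρ (algebraMap L E (l : L)) * ρ (ρ (algebraMap L E (l : L))) := by
    have h3 := hg.1 1 1
    rw [tri_one_one, h1', tri_smul_left, tri_smul_right, smul_smul, ← hg2.1, tri_one_one] at h3
    have h4 : g' (1 : OctL E a b c) ≠ 0 := by
      intro h5
      have h6 : (1 : OctL E a b c) = 0 := by
        apply g'.injective
        rw [h5, map_zero]
      have h7 := congrArg (fun x : OctL E a b c => x.fst.re) h6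
      simp at h7
    exact smul_left_injective E h4 h3
  have hl0 : algebraMap L E (l : L) ≠ 0 :=
    (map_ne_zero_iff _ (algebraMap L E).injective).2 l.ne_zero
  have hl1 : algebraMap L E (l : L) = 1 := by
    -- `l = ρ l ρ² l`, so `N(l) = l²`, `ρ l = ± l`, and `l = 1`
    set t := algebraMap L E (l : L) with ht
    have h3 : ρ t = ρ (ρ t) * t := by
      have := congrArg ρ h2
      rwa [map_mul, H.ρ3] at this
    have h4 : t = t * (ρ (ρ t)) ^ 2 := by
      linear_combination h2 + ρ (ρ t) * h3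
    have h5 : (ρ (ρ t)) ^ 2 = 1 := by
      have := mul_left_cancel₀ hl0 (h4.symm.trans (mul_one t).symm)
      exact this
    have h6 : (ρ (ρ t) - 1) * (ρ (ρ t) + 1) = 0 := by linear_combination h5
    rcases mul_eq_zero.1 h6 with h7 | h7
    · have h8 : ρ (ρ t) = 1 := by linear_combination h7
      have h9 := congrArg ρ h8
      rwa [H.ρ3, map_one] at h9
    · have h8 : ρ (ρ t) = -1 := by linear_combination h7
      have h9 := congrArg ρ h8
      rw [H.ρ3, map_neg, map_one] at h9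
      have h10 := congrArg ρ h9
      rw [map_neg, map_one] at h10
      linear_combination h2 + ρ t * h8 - h10
  have h3 : g = g' := by
    apply LinearEquiv.ext
    intro x
    rw [h1', hl1, one_smul]
  rw [h3]
  exact hg'

end model

end Vale.Agent.P011.D4X
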