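import Vale.Agent.P011.D4X.Defs2
import Vale.Agent.P011.E6.Pos3

/-!
Block D4X (helper691): change of coordinates with `i` fixed, scalars, classes.
-/

open NumberField Topology

namespace Vale.Agent.P011.D4X

open Vale.Agent.P011.MPQ Vale.Agent.P011.D4 Vale.Agent.P011.D4.Oct Vale.Agent.P011.E6

section trip

variable {k E : Type} [Field k] [Field E] [Algebra k E] [NeZero (2 : E)] {a b c a' b' c' : kˣ}
  {i j l : Oct a b c}

theorem tripO_star (h : Trip a' b' c' i j l) (x : OctL E a' b' c') :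
    tripO E h (star x) = star (tripO E h x) := hom_star (tripO_mul h) x

theorem tripO_tri (ρ : E ≃ₐ[k] E) (h : Trip a' b' c' i j l) (x y : OctL E a' b' c') :
    tripO E h (tri ρ x y) = tri ρ (tripO E h x) (tripO E h y) := by
  rw [tri, tri, tripO_mul, tripO_omap, tripO_omap, tripO_omap, tripO_star, tripO_star]

end trip

section model

variable {k L E : Type} [Field k] [Field L] [Field E] [Algebra k L] [Algebra k E] [Algebra L E]
  [IsScalarTower k L E] {ρ σ : E ≃ₐ[k] E} {ρL : L ≃ₐ[k] L} {α : E}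
  {a b c : kˣ} {q : Lˣ}

/-- The octonion form of `J`. -/
theorem Jm_eq (x : OctL E a b c) : Jm ρ σ α q x =
    (⟨mq a b α (algebraMap L E q), 0⟩ : OctL E a b c) * omap σ x *
      ⟨mq a b α (algebraMap L E q * ρ (algebraMap L E q)), 0⟩ := by
  ext1
  · simp only [Jm, fst_mul, snd_mul, omap, star_zero, zero_mul, mul_zero, smul_zero, add_zero]
  · simp only [Jm, fst_mul, snd_mul, omap, zero_mul, mul_zero, zero_add, add_zero,
      mul_assoc]

theorem tripO_mq [NeZero (2 : E)] {b' c' : kˣ} {j l : Oct a b c} (h : Trip a b' c' gi j l) (t : E) :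
    tripO E h ⟨mq a b' α t, 0⟩ = ⟨mq a b α t, 0⟩ := by
  rw [tripO_apply]
  simp only [emb, qemb, mq, oup_gi, QuaternionAlgebra.re_zero, QuaternionAlgebra.imI_zero,
    QuaternionAlgebra.imJ_zero, QuaternionAlgebra.imK_zero, zero_smul, add_zero, zero_mul]
  apply ext8 <;> simp [gi] <;> first | exact mul_zero _ | exact mul_one _

theorem tripO_Jm [NeZero (2 : E)] {b' c' : kˣ} {j l : Oct a b c} (h : Trip a b' c' gi j l)
    (x : OctL E a b' c') :
    tripO E h (Jm ρ σ α q x) = Jm ρ σ α q (tripO E h x) := by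
  rw [Jm_eq, Jm_eq, tripO_mul, tripO_mul, tripO_mq, tripO_mq, tripO_omap]

theorem tri_one_one (ρ : E ≃ₐ[k] E) : tri ρ (1 : OctL E a b c) 1 = 1 := by
  rw [tri, star_one]
  have h1 : omap ρ (1 : OctL E a b c) = 1 := by
    apply ext8 <;> simp [omap, qmap]
  rw [h1, h1, mul_one]

theorem kap_unique {z : OctL E a b c ≃ₗ[E] OctL E a b c} {κ κ' : Lˣ} (h : IsKap ρ z κ)
    (h' : IsKap ρ z κ') : κ = κ' := by
  have h1 := h 1 1
  have h2 := h' 1 1
  rw [tri_one_one] at h1 h2
  have h3 : tri ρ (z (1 : OctL E a b c)) (z 1) ≠ 0 := by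
    intro h4
    rw [h4, smul_zero] at h1
    have h5 : (1 : OctL E a b c) = 0 := by
      apply z.injective
      rw [h1, map_zero]
    have h6 := congrArg (fun x : OctL E a b c => x.fst.re) h5
    simp at h6
  have h4 : algebraMap L E (κ : L) • tri ρ (z (1 : OctL E a b c)) (z 1) =
      algebraMap L E (κ' : L) • tri ρ (z (1 : OctL E a b c)) (z 1) := h1.symm.trans h2
  exact Units.ext ((algebraMap L E).injective (smul_left_injective E h3 h4))

theorem IsKap.mul {z w : OctL E a b c ≃ₗ[E] OctL E a b c} {κ κ' : Lˣ} (h : IsKap ρ z κ)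
    (h' : IsKap ρ w κ') : IsKap ρ (z * w) (κ * κ') := fun x y => by
  rw [LinearEquiv.mul_apply, LinearEquiv.mul_apply, LinearEquiv.mul_apply, h', map_smul, h,
    smul_smul, Units.val_mul, map_mul, mul_comm (algebraMap L E (κ : L))]

theorem IsKap.inv {z : OctL E a b c ≃ₗ[E] OctL E a b c} {κ : Lˣ} (h : IsKap ρ z κ) :
    IsKap ρ z⁻¹ κ⁻¹ := fun x y => by
  have hz : ∀ v, z (z⁻¹ v) = v := fun v => by
    rw [← LinearEquiv.mul_apply, mul_inv_cancel]; rfl
  apply z.injective
  rw [map_smul, h, hz, hz, hz, smul_smul, ← map_mul, Units.inv_mul, map_one, one_smul]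

theorem IsKap.one : IsKap ρ (1 : OctL E a b c ≃ₗ[E] OctL E a b c) (1 : Lˣ) := fun x y => by
  rw [Units.val_one, map_one, one_smul]; rfl

/-- The multiplier. -/
noncomputable def kap (z : AT ρ σ α a b c q) : Lˣ := z.2.1.choose

theorem isKap_kap (z : AT ρ σ α a b c q) : IsKap ρ z.1 (kap z) := z.2.1.choose_spec

theorem kap_eq {z : AT ρ σ α a b c q} {κ : Lˣ} (h : IsKap ρ z.1 κ) : kap z = κ :=
  kap_unique (isKap_kap z) h

variable (ρ σ α a b c q) in
/-- The multiplier, as a homomorphism. -/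
noncomputable def kapHom : AT ρ σ α a b c q →* Lˣ where
  toFun := kap
  map_one' := kap_eq IsKap.one
  map_mul' z w := kap_eq ((isKap_kap z).mul (isKap_kap w))

@[simp] theorem kapHom_apply (z : AT ρ σ α a b c q) : kapHom ρ σ α a b c q z = kap z := rfl

variable (ρ σ α a b c q) in
/-- The class. -/
noncomputable def clT : AT ρ σ α a b c q →* Lˣ ⧸ SqL k L :=
  (QuotientGroup.mk' (SqL k L)).comp (kapHom ρ σ α a b c q)

theorem clT_eq_one_iff {z : AT ρ σ α a b c q} {κ : Lˣ} (h : IsKap ρ z.1 κ) :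
    clT ρ σ α a b c q z = 1 ↔ κ ∈ SqL k L := by
  rw [clT, MonoidHom.comp_apply, kapHom_apply, kap_eq h]
  exact QuotientGroup.eq_one_iff κ

/-- Membership in `k* L*²`. -/
theorem mem_SqL {κ : Lˣ} : κ ∈ SqL k L ↔ ∃ (t : kˣ) (l : Lˣ), κ = up L t * l ^ 2 := by
  rw [SqL, Subgroup.mem_sup]
  constructor
  · rintro ⟨_, ⟨t, rfl⟩, _, ⟨l, rfl⟩, rfl⟩
    exact ⟨t, l, rfl⟩
  · rintro ⟨t, l, rfl⟩
    exact ⟨_, ⟨t, rfl⟩, _, ⟨l, rfl⟩, rfl⟩

variable (H : Hy ρ σ ρL α a b c q)

include H

/-- The norm of a unit of `L` lies in `k`. -/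
theorem Hy.exists_norm (l : Lˣ) : ∃ n : kˣ, algebraMap k L (n : k) = l * ρL l * ρL (ρL l) := by
  have hfd : FiniteDimensional k L := Module.finite_of_finrank_eq_succ H.h3
  have h3 : ∀ t, ρL (ρL (ρL t)) = t := fun t => by
    apply (algebraMap L E).injective
    rw [← H.ρL', ← H.ρL', ← H.ρL', H.ρ3]
  -- the fixed field of `ρL` is `k`
  have hfix : ∀ t : L, ρL t = t → ∃ s : k, algebraMap k L s = t := by
    intro t ht
    by_contra hne
    push Not at hne
    have hd : (IntermediateField.adjoin k {t}) ≠ ⊥ := by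
      intro h
      have h1 : t ∈ (⊥ : IntermediateField k L) := by
        rw [← h]
        exact IntermediateField.mem_adjoin_simple_self k t
      obtain ⟨s, hs⟩ := IntermediateField.mem_bot.1 h1
      exact hne s hs
    have h1 : Module.finrank k (IntermediateField.adjoin k {t}) ∣ 3 := by
      rw [← H.h3]
      exact Dvd.intro _ (Module.finrank_mul_finrank k (IntermediateField.adjoin k {t}) L)
    have h2 : Module.finrank k (IntermediateField.adjoin k {t}) ≠ 1 := fun h =>
      hd (IntermediateField.finrank_eq_one_iff.1 h)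
    have h4 : Module.finrank k (IntermediateField.adjoin k {t}) = 3 :=
      ((Nat.dvd_prime Nat.prime_three).1 h1).resolve_left h2
    have h5 : IntermediateField.adjoin k {t} = ⊤ := by
      apply IntermediateField.eq_of_le_of_finrank_eq le_top
      rw [h4, ← H.h3]
      exact (IntermediateField.finrank_top' (F := k) (E := L)).symm
    apply H.ρ1
    ext x
    have h6 : x ∈ IntermediateField.adjoin k {t} := by rw [h5]; exact IntermediateField.mem_top
    have h7 : IntermediateField.adjoin k {t} ≤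
        IntermediateField.fixedField (Subgroup.zpowers ρL) := by
      rw [IntermediateField.adjoin_le_iff]
      rintro y rfl
      rw [SetLike.mem_coe, IntermediateField.mem_fixedField_iff]
      intro f hf
      obtain ⟨n, rfl⟩ := Subgroup.mem_zpowers_iff.1 hf
      have key : ∀ (m : ℕ), (ρL ^ m) y = y := by
        intro m
        induction m with
        | zero => rfl
        | succ m ih => rw [pow_succ, AlgEquiv.mul_apply, ht, ih]
      obtain ⟨m, rfl | rfl⟩ := n.eq_nat_or_neg
      · rw [zpow_natCast]; exact key m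
      · rw [zpow_neg, zpow_natCast, AlgEquiv.aut_inv, AlgEquiv.symm_apply_eq]
        exact (key m).symm
    have h8 := (IntermediateField.mem_fixedField_iff _ _).1 (h7 h6) ρL (Subgroup.mem_zpowers ρL)
    exact h8
  have h4 : ρL ((l : L) * ρL l * ρL (ρL l)) = l * ρL l * ρL (ρL l) := by
    rw [map_mul, map_mul, h3]
    ring
  obtain ⟨s, hs⟩ := hfix _ h4
  have hs0 : s ≠ 0 := by
    rintro rfl
    rw [map_zero] at hs
    have h5 : (l : L) * ρL l * ρL (ρL l) ≠ 0 := by
      refine mul_ne_zero (mul_ne_zero l.ne_zero ?_) ?_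
      · exact (map_ne_zero_iff ρL ρL.injective).2 l.ne_zero
      · exact (map_ne_zero_iff ρL ρL.injective).2 ((map_ne_zero_iff ρL ρL.injective).2 l.ne_zero)
    exact h5 hs.symm
  exact ⟨Units.mk0 s hs0, hs⟩

theorem Hy.ρL3 (t : L) : ρL (ρL (ρL t)) = t := by
  apply (algebraMap L E).injective
  rw [← H.ρL', ← H.ρL', ← H.ρL', H.ρ3]

/-- `J` is semilinear. -/
theorem Jm_smulL (t : L) (x : OctL E a b c) :
    Jm ρ σ α q (algebraMap L E t • x) = algebraMap L E t • Jm ρ σ α q x := by
  rw [Jm_eq, Jm_eq, omap_smul, H.σL, mul_smul_oct, smul_mul_oct]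

/-- The scalars. -/
def Hy.scal (l : Lˣ) : AT ρ σ α a b c q :=
  ⟨LinearEquiv.smulOfUnit (Units.map (algebraMap L E : L →* E) l), by
    refine ⟨⟨l * (Units.map (ρL : L →* L) l)⁻¹ *
      (Units.map (ρL : L →* L) (Units.map (ρL : L →* L) l))⁻¹, fun x y => ?_⟩, fun x => ?_⟩
    · change (algebraMap L E (l : L)) • tri ρ x y = _ • tri ρ ((algebraMap L E (l : L)) • x)
        ((algebraMap L E (l : L)) • y)
      rw [tri_smul_left, tri_smul_right, smul_smul, smul_smul, H.ρL', H.ρL', ← map_mul, ← map_mul]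
      congr 2
      push_cast
      simp only [Units.val_inv_eq_inv_val, Units.coe_map, MonoidHom.coe_coe]
      have h1 : ρL (l : L) ≠ 0 := (map_ne_zero_iff ρL ρL.injective).2 l.ne_zero
      have h2 : ρL (ρL (l : L)) ≠ 0 := (map_ne_zero_iff ρL ρL.injective).2 h1
      field_simp
    · change (algebraMap L E (l : L)) • Jm ρ σ α q x = Jm ρ σ α q ((algebraMap L E (l : L)) • x)
      rw [Jm_smulL H]⟩

theorem Hy.scal_apply (l : Lˣ) (x : OctL E a b c) :
    (H.scal l).1 x = algebraMap L E (l : L) • x := rfl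

end model

end Vale.Agent.P011.D4X
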