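import Vale.Agent.P011.D4X.H691.TopP
import Vale.Agent.P011.D4X.H547.Part

/-!
Block D4X (helper691): openness at the bad real places.
-/

open NumberField Topology Filter

set_option linter.unusedSectionVars false

namespace Vale.Agent.P011.D4X

open Vale.Agent.P011.MPQ Vale.Agent.P011.D4 Vale.Agent.P011.D4.Oct Vale.Agent.P011.E6

section fin

variable {k L E : Type} [Field k] [NumberField k] [Field L] [NumberField L] [Field E]
  [Algebra k L] [Algebra k E] [Algebra L E]
  [IsScalarTower k L E] [NeZero (2 : E)] {ρ σ : E ≃ₐ[k] E} {ρL : L ≃ₐ[k] L} {α : E}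
  {a b c : kˣ} {q : Lˣ} (H : Hy ρ σ ρL α a b c q)

include H

/-- **D4X.** The elements of `GT` close to one at the real places where the group is isotropic lie
in every subgroup of finite index. -/
theorem open_top (hX : ∀ w : L →+* ℝ, w (algebraMap k L a) < 0 →
      w (algebraMap k L b) < 0 ∧ w (algebraMap k L c) < 0) :
    ∃ ε : ℝ, 0 < ε ∧ ∀ g : OctL E a b c ≃ₗ[E] OctL E a b c, g ∈ GT ρ σ α a b c q →
      (∀ w ∈ Bd ρ σ q, ∀ x, on w (g x - x) ≤ ε * on w x) → g ∈ Rs ρ σ α a b c q :=
  open_top_of_part H (fun h _ hD hD' _ _ κ hκ => part H hX h hD hD' κ hκ)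

end fin

end Vale.Agent.P011.D4X
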