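import Vale.Agent.P011.RP.Dense

/-!
Block D4X (helper691): signs of multipliers at the real places, the abstract end of the proof.
-/

open NumberField

namespace Vale.Agent.P011.D4X.H691

/-- The classes with constant sign above every real place where `a` is negative. -/
def PosC (k L : Type) [Field k] [Field L] [Algebra k L] (a : kˣ) : Subgroup Lˣ where
  carrier := {κ | ∀ w w' : L →+* ℝ, w.comp (algebraMap k L) = w'.comp (algebraMap k L) →
    w (algebraMap k L (a : k)) < 0 → 0 < w (κ : L) * w' (κ : L)}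
  mul_mem' := by
    intro x y hx hy w w' h ha
    rw [Units.val_mul, map_mul, map_mul]
    have := mul_pos (hx w w' h ha) (hy w w' h ha)
    calc 0 < w (x : L) * w' (x : L) * (w (y : L) * w' (y : L)) := this
      _ = w (x : L) * w (y : L) * (w' (x : L) * w' (y : L)) := by ring
  one_mem' := by
    intro w w' _ _
    simp
  inv_mem' := by
    intro x hx w w' h ha
    rw [Units.val_inv_eq_inv_val, map_inv₀, map_inv₀, ← mul_inv]
    exact inv_pos.2 (hx w w' h ha)

variable {k L : Type} [Field k] [Field L] [Algebra k L] {a : kˣ}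

theorem sq_mem_PosC (l : Lˣ) : l ^ 2 ∈ PosC k L a := by
  intro w w' _ _
  have h1 : w (l : L) ≠ 0 := (map_ne_zero w).2 l.ne_zero
  have h2 : w' (l : L) ≠ 0 := (map_ne_zero w').2 l.ne_zero
  rw [Units.val_pow_eq_pow_val, map_pow, map_pow]
  positivity

theorem map_mem_PosC (t : kˣ) : Units.map (algebraMap k L : k →* L) t ∈ PosC k L a := by
  intro w w' h _
  have h1 : w (algebraMap k L (t : k)) = w' (algebraMap k L (t : k)) := by
    have := congrArg (fun f : k →+* ℝ => f (t : k)) h
    exact this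
  have h2 : w' (algebraMap k L (t : k)) ≠ 0 :=
    (map_ne_zero w').2 ((map_ne_zero (algebraMap k L)).2 t.ne_zero)
  change 0 < w (algebraMap k L (t : k)) * w' (algebraMap k L (t : k))
  rw [h1]
  exact mul_self_pos.2 h2

/-- A class with constant signs is positive up to `kˣ`. -/
theorem exists_e [NumberField k] {κ : Lˣ} (h : κ ∈ PosC k L a) :
    ∃ e : kˣ, ∀ w : L →+* ℝ, w (algebraMap k L (a : k)) < 0 →
      0 < w (algebraMap k L (e : k)) * w (κ : L) := by
  classical
  rcases isEmpty_or_nonempty (k →+* ℝ) with h0 | h0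
  · exact ⟨1, fun w => (h0.false (w.comp (algebraMap k L))).elim⟩
  obtain ⟨t, ht⟩ := RP.real_dense (F := k) (fun τ : k →+* ℝ =>
    if ∃ w : L →+* ℝ, w.comp (algebraMap k L) = τ ∧ 0 < w (κ : L) then (1 : ℝ) else -1)
    (one_pos : (0 : ℝ) < 1)
  have ht0 : t ≠ 0 := by
    rintro rfl
    obtain ⟨τ⟩ := h0
    have h1 := ht τ
    rw [map_zero] at h1
    split_ifs at h1 <;> norm_num at h1
  refine ⟨Units.mk0 t ht0, fun w hw => ?_⟩
  have h1 := ht (w.comp (algebraMap k L))
  change 0 < w (algebraMap k L t) * w (κ : L)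
  have h2 : w (κ : L) ≠ 0 := (map_ne_zero w).2 κ.ne_zero
  change |w (algebraMap k L t) - _| < 1 at h1
  split_ifs at h1 with hc
  · obtain ⟨w', h3, h4⟩ := hc
    have h5 := h w w' h3.symm hw
    have h6 : 0 < w (κ : L) := by
      rcases lt_or_gt_of_ne h2 with h7 | h7
      · exact absurd h5 (not_lt.2 (mul_nonpos_of_nonpos_of_nonneg h7.le h4.le))
      · exact h7
    have h7 : 0 < w (algebraMap k L t) := by
      have := (abs_lt.1 h1).1
      linarith
    exact mul_pos h7 h6
  · have h6 : w (κ : L) < 0 := by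
      rcases lt_or_gt_of_ne h2 with h7 | h7
      · exact h7
      · exact absurd ⟨w, rfl, h7⟩ hc
    have h7 : w (algebraMap k L t) < 0 := by
      have := (abs_lt.1 h1).2
      linarith
    exact mul_pos_of_neg_of_neg h7 h6

/-- The end of the proof. -/
theorem finP {A Θ ι : Type} [Group A] [CommGroup Θ] (N : Subgroup A) (hn : N.Normal)
    (S0 : Subgroup Θ) (f : A →* Θ) (S : ι → Subgroup A) (i₀ : ι)
    (ha : ∀ z ∈ S i₀, f z ∈ S0 → z ∈ N) (hN : ∀ z ∈ N, f z ∈ S0)
    (hd : ∀ i, S i ≤ N ⊔ S i₀) {g : A} (hg : g ∈ ⨆ i, S i) (hf : f g ∈ S0) : g ∈ N := by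
  have h1 : (⨆ i, S i) ≤ N ⊔ S i₀ := iSup_le hd
  obtain ⟨n, hn1, s, hs, rfl⟩ := Subgroup.mem_sup_of_normal_left.1 (h1 hg)
  have h2 : f s ∈ S0 := by
    rw [map_mul] at hf
    exact (Subgroup.mul_mem_cancel_left S0 (hN n hn1)).1 hf
  exact N.mul_mem hn1 (ha s hs h2)

end Vale.Agent.P011.D4X.H691
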