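import Vale.Agent.P011.D4X.H691.OpenX
import Vale.Agent.P011.D4X.H691.StabN
import Vale.Agent.P011.D4X.H64.F4
import Vale.Agent.P011.D4X.H69.NearGen

/-!
Block D4X (helper691): openness at the bad real places, from `near_gen`, `gen2`, `part`.
-/

open NumberField Topology Filter

set_option linter.unusedSectionVars false

namespace Vale.Agent.P011.D4X

open Vale.Agent.P011.MPQ Vale.Agent.P011.D4 Vale.Agent.P011.D4.Oct Vale.Agent.P011.E6
open Vale.Agent.P011.D4X.H691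

section fin

variable {k L E : Type} [Field k] [NumberField k] [Field L] [NumberField L] [Field E]
  [Algebra k L] [Algebra k E] [Algebra L E]
  [IsScalarTower k L E] [NeZero (2 : E)] {ρ σ : E ≃ₐ[k] E} {ρL : L ≃ₐ[k] L} {α : E}
  {a b c : kˣ} {q : Lˣ} (H : Hy ρ σ ρL α a b c q)

include H

/-- The centralisers are congruent to the centraliser of the standard involution, for the elements
whose multiplier has constant signs. -/
theorem stabP_le {b' c' : kˣ} {j l : Oct a b c} (h : Trip a b' c' gi j l)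
    (hpart : ∀ {D : k}, GoodD a b q D → GoodD a b' q D → ∀ {x y : L} (κ : Lˣ),
      (κ : L) = x ^ 2 - algebraMap k L D * y ^ 2 →
      ∃ w w' : AT ρ σ α a b c q, w ∈ stab0 ρ σ α a b c q ∧ w' ∈ stab ρ σ α q h ∧
        IsKap ρ w.1 κ ∧ IsKap ρ w'.1 κ ∧ IsN ρ σ α a b c q (w * w'⁻¹))
    {z : AT ρ σ α a b c q} (hz : z ∈ stab ρ σ α q h) (hP : kap z ∈ PosC k L a) :
    z ∈ H.NA ⊔ stab0 ρ σ α a b c q := by
  refine stabP_le_of H h (fun ν hν => ?_) hpart (fun hz _ hκ hc => stab_N H h hz hκ hc) hz hP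
  obtain ⟨D, x, y, e, h1, -, h2⟩ := F4s (b' := b') (q := q) H.h3 H.ρ1
    (aniso_of_trip H.hdiv trip_std).1 ν hν
  exact ⟨D, x, y, e, h1, h2⟩

/-- **Openness at the bad places**, from the generation near one and `part`. -/
theorem open_top_of {S : Set (E →+* ℂ)} (hS : S.Finite) {v : OctL E a b c} (hv : Pt ρ v)
    (hgen : ∀ᶠ x in nh S v, Pt ρ x → PPP (PosC k L a) ρ σ α q x)
    (hgen2 : ∀ (z : AT ρ σ α a b c q) (t : E), z.1 (ep α) = t • ep α → kap z ∈ PosC k L a →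
      z ∈ stabsP (PosC k L a) ρ σ α a b c q)
    (hpart : ∀ {b' c' : kˣ} {j l : Oct a b c} (h : Trip a b' c' gi j l) {D : k},
      GoodD a b q D → GoodD a b' q D → ∀ {x y : L} (κ : Lˣ),
      (κ : L) = x ^ 2 - algebraMap k L D * y ^ 2 →
      ∃ w w' : AT ρ σ α a b c q, w ∈ stab0 ρ σ α a b c q ∧ w' ∈ stab ρ σ α q h ∧
        IsKap ρ w.1 κ ∧ IsKap ρ w'.1 κ ∧ IsN ρ σ α a b c q (w * w'⁻¹)) :
    ∃ ε : ℝ, 0 < ε ∧ ∀ g : OctL E a b c ≃ₗ[E] OctL E a b c, g ∈ GT ρ σ α a b c q →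
      (∀ w ∈ S, ∀ x, on w (g x - x) ≤ ε * on w x) → g ∈ Rs ρ σ α a b c q := by
  refine open_of H hS hv hgen hgen2 (fun h _ hz hP => stabP_le H h (hpart h) hz hP) ?_
  intro z hz hc
  rw [← stab_std (trip_std : Trip a b c (gi : Oct a b c) gj gl)] at hz
  exact stab_N H trip_std hz (isKap_kap z) hc

end fin

end Vale.Agent.P011.D4X
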