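import Vale.Agent.P011.D4X.H691.TopOf
import Vale.Agent.P011.D4X.H69.NearF
import Vale.Agent.P011.D4X.H659.Gen2P

/-!
Block D4X (helper691): openness at the bad real places, from `part`.
-/

open NumberField Topology Filter

set_option linter.unusedSectionVars false

namespace Vale.Agent.P011.D4X

open Vale.Agent.P011.MPQ Vale.Agent.P011.D4 Vale.Agent.P011.D4.Oct Vale.Agent.P011.E6
open Vale.Agent.P011.D4X.H691

section fin

variable {k L E : Type} [Field k] [NumberField k] [Field L] [NumberField L] [Field E]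
  [Algebra k L] [Algebra k E] [Algebra L E]
  [IsScalarTower k L E] [NeZero (2 : E)] {ρ σ : E ≃ₐ[k] E} {ρL : L ≃ₐ[k] L} {α : E}
  {a b c : kˣ} {q : Lˣ} (H : Hy ρ σ ρL α a b c q)

/-- Positive multipliers have constant signs. -/
theorem H691.pos_mem_PosC (κ : Lˣ)
    (h : ∀ w : L →+* ℝ, w (algebraMap k L (a : k)) < 0 → 0 < w (κ : L)) : κ ∈ PosC k L a := by
  intro w w' hw ha
  have ha' : w' (algebraMap k L (a : k)) < 0 := by
    have h1 := congrArg (fun f : k →+* ℝ => f (a : k)) hw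
    change w (algebraMap k L (a : k)) = w' (algebraMap k L (a : k)) at h1
    rwa [← h1]
  exact mul_pos (h w ha) (h w' ha')

include H

/-- **Openness at the bad places**, from `part`. -/
theorem open_top_of_part
    (hpart : ∀ {b' c' : kˣ} {j l : Oct a b c} (h : Trip a b' c' gi j l) {D : k},
      GoodD a b q D → GoodD a b' q D → ∀ {x y : L} (κ : Lˣ),
      (κ : L) = x ^ 2 - algebraMap k L D * y ^ 2 →
      ∃ w w' : AT ρ σ α a b c q, w ∈ stab0 ρ σ α a b c q ∧ w' ∈ stab ρ σ α q h ∧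
        IsKap ρ w.1 κ ∧ IsKap ρ w'.1 κ ∧ IsN ρ σ α a b c q (w * w'⁻¹)) :
    ∃ ε : ℝ, 0 < ε ∧ ∀ g : OctL E a b c ≃ₗ[E] OctL E a b c, g ∈ GT ρ σ α a b c q →
      (∀ w ∈ Bd ρ σ q, ∀ x, on w (g x - x) ≤ ε * on w x) → g ∈ Rs ρ σ α a b c q := by
  have hv : Pt ρ (ep α * oup E (gl : Oct a b c) : OctL E a b c) := by
    rw [← H862.vl_eq]
    exact H862.pt_vl H
  exact open_top_of H (Bd_finite H) hv (near_gen H H691.pos_mem_PosC)
    (fun z t h1 h2 => gen2P H h1 h2) hpart

end fin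

end Vale.Agent.P011.D4X
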