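import Vale.Agent.P011.D4X.H691.Na

/-!
Block D4X (helper691): transport along a change of `j`, `l`.
-/

open NumberField Topology

set_option linter.unusedSectionVars false

namespace Vale.Agent.P011.D4X

open Vale.Agent.P011.MPQ Vale.Agent.P011.D4 Vale.Agent.P011.D4.Oct Vale.Agent.P011.E6

namespace H691

variable {k L E : Type} [Field k] [Field L] [Field E] [Algebra k L] [Algebra k E] [Algebra L E]
  [IsScalarTower k L E] {ρ σ : E ≃ₐ[k] E} {ρL : L ≃ₐ[k] L} {α : E}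
  {a b c : kˣ} {q : Lˣ}

/-- The hypotheses do not depend on `j`, `l`. -/
theorem hyTrip [NeZero (2 : k)] (H : Hy ρ σ ρL α a b c q) {b' c' : kˣ} {j l : Oct a b c}
    (h : Trip a b' c' gi j l) : Hy ρ σ ρL α a b' c' q where
  h3 := H.h3
  h2 := H.h2
  ρ1 := H.ρ1
  ρ3 := H.ρ3
  ρL' := H.ρL'
  σL := H.σL
  σ2 := H.σ2
  comm := H.comm
  α2 := H.α2
  ρα := H.ρα
  σα := H.σα
  hq := H.hq
  hdiv := (aniso_of_trip H.hdiv h).2.2.2
  hcp := H.hcp
  hre w hw g1 g2 g3 := by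
    obtain ⟨h1, h2⟩ := H.hre w hw g1 g2 g3
    have h4 := (DefAt.of_neg (τ := w.comp (algebraMap k L)) (a := a) (b := b) (c := c)
      hw h1 h2).trip h
    exact ⟨h4.neg.2.1, h4.neg.2.2⟩

variable [NeZero (2 : E)] {b' c' : kˣ} {j l : Oct a b c} (h : Trip a b' c' gi j l)

theorem cj_apply (g : OctL E a b' c' ≃ₗ[E] OctL E a b' c') (x : OctL E a b' c') :
    cjE (tripO E h) g (tripO E h x) = tripO E h (g x) := cjE_apply _ _ _

theorem cj_isKap {g : OctL E a b' c' ≃ₗ[E] OctL E a b' c'} {κ : Lˣ} (hg : IsKap ρ g κ) :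
    IsKap ρ (cjE (tripO E h) g) κ := by
  intro x y
  obtain ⟨x, rfl⟩ := (tripO E h).surjective x
  obtain ⟨y, rfl⟩ := (tripO E h).surjective y
  rw [← tripO_tri, cj_apply, cj_apply, cj_apply, hg, map_smul, tripO_tri]

theorem cj_isKap' {g : OctL E a b' c' ≃ₗ[E] OctL E a b' c'} {κ : Lˣ}
    (hg : IsKap ρ (cjE (tripO E h) g) κ) : IsKap ρ g κ := by
  intro x y
  apply (tripO E h).injective
  have h1 := hg (tripO E h x) (tripO E h y)
  rwa [← tripO_tri, cj_apply, cj_apply, cj_apply, ← tripO_tri, ← map_smul] at h1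

theorem cj_Jm {g : OctL E a b' c' ≃ₗ[E] OctL E a b' c'} :
    (∀ x, cjE (tripO E h) g (Jm ρ σ α q x) = Jm ρ σ α q (cjE (tripO E h) g x)) ↔
      ∀ x, g (Jm ρ σ α q x) = Jm ρ σ α q (g x) := by
  constructor
  · intro hg x
    apply (tripO E h).injective
    have h1 := hg (tripO E h x)
    rwa [← tripO_Jm, cj_apply, cj_apply, ← tripO_Jm] at h1
  · intro hg x
    obtain ⟨x, rfl⟩ := (tripO E h).surjective x
    rw [← tripO_Jm, cj_apply, cj_apply, hg, tripO_Jm]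

theorem cj_tri {g : OctL E a b' c' ≃ₗ[E] OctL E a b' c'} :
    (∀ x y, cjE (tripO E h) g (tri ρ x y) =
        tri ρ (cjE (tripO E h) g x) (cjE (tripO E h) g y)) ↔
      ∀ x y, g (tri ρ x y) = tri ρ (g x) (g y) := by
  constructor
  · intro hg x y
    apply (tripO E h).injective
    have h1 := hg (tripO E h x) (tripO E h y)
    rwa [← tripO_tri, cj_apply, cj_apply, cj_apply, ← tripO_tri] at h1
  · intro hg x y
    obtain ⟨x, rfl⟩ := (tripO E h).surjective x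
    obtain ⟨y, rfl⟩ := (tripO E h).surjective y
    rw [← tripO_tri, cj_apply, cj_apply, cj_apply, hg, tripO_tri]

theorem cj_mem_AT {g : OctL E a b' c' ≃ₗ[E] OctL E a b' c'} :
    cjE (tripO E h) g ∈ AT ρ σ α a b c q ↔ g ∈ AT ρ σ α a b' c' q := by
  constructor
  · rintro ⟨⟨κ, h1⟩, h2⟩
    exact ⟨⟨κ, cj_isKap' h h1⟩, (cj_Jm h).1 h2⟩
  · rintro ⟨⟨κ, h1⟩, h2⟩
    exact ⟨⟨κ, cj_isKap h h1⟩, (cj_Jm h).2 h2⟩

theorem cj_mem_GT {g : OctL E a b' c' ≃ₗ[E] OctL E a b' c'} :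
    cjE (tripO E h) g ∈ GT ρ σ α a b c q ↔ g ∈ GT ρ σ α a b' c' q :=
  ⟨fun h1 => ⟨(cj_tri h).1 h1.1, (cj_Jm h).1 h1.2⟩,
    fun h1 => ⟨(cj_tri h).2 h1.1, (cj_Jm h).2 h1.2⟩⟩

variable (ρ σ α q) in
/-- Conjugation of the adjoint groups. -/
noncomputable def cjA : AT ρ σ α a b' c' q ≃* AT ρ σ α a b c q where
  toFun z := ⟨cjE (tripO E h) z.1, (cj_mem_AT h).2 z.2⟩
  invFun z := ⟨(cjE (tripO E h)).symm z.1, (cj_mem_AT h).1 (by
    rw [MulEquiv.apply_symm_apply]; exact z.2)⟩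
  left_inv z := Subtype.ext ((cjE (tripO E h)).symm_apply_apply z.1)
  right_inv z := Subtype.ext ((cjE (tripO E h)).apply_symm_apply z.1)
  map_mul' z w := Subtype.ext (map_mul (cjE (tripO E h)) z.1 w.1)

variable (ρ σ α q) in
/-- Conjugation of the groups `GT`. -/
noncomputable def cjG : GT ρ σ α a b' c' q ≃* GT ρ σ α a b c q where
  toFun z := ⟨cjE (tripO E h) z.1, (cj_mem_GT h).2 z.2⟩
  invFun z := ⟨(cjE (tripO E h)).symm z.1, (cj_mem_GT h).1 (by
    rw [MulEquiv.apply_symm_apply]; exact z.2)⟩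
  left_inv z := Subtype.ext ((cjE (tripO E h)).symm_apply_apply z.1)
  right_inv z := Subtype.ext ((cjE (tripO E h)).apply_symm_apply z.1)
  map_mul' z w := Subtype.ext (map_mul (cjE (tripO E h)) z.1 w.1)

theorem kap_cjA (z : AT ρ σ α a b' c' q) : kap (cjA ρ σ α q h z) = kap z :=
  kap_eq (cj_isKap h (isKap_kap z))

theorem cj_mem_Rs {g : OctL E a b' c' ≃ₗ[E] OctL E a b' c'} (hg : g ∈ Rs ρ σ α a b' c' q) :
    cjE (tripO E h) g ∈ Rs ρ σ α a b c q := by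
  obtain ⟨h1, h2⟩ := mem_Rs.1 hg
  exact mem_Rs.2 ⟨_, fres_map (cjG ρ σ α q h) h2⟩

theorem cjA_isN {z : AT ρ σ α a b' c' q} (hz : IsN ρ σ α a b' c' q z) :
    IsN ρ σ α a b c q (cjA ρ σ α q h z) := by
  obtain ⟨l', g, hg, h1⟩ := hz
  refine ⟨l', _, cj_mem_Rs h hg, fun x => ?_⟩
  change cjE (tripO E h) z.1 x = _
  obtain ⟨x, rfl⟩ := (tripO E h).surjective x
  rw [cj_apply, cj_apply, h1, map_smul]

theorem cjA_mem_stab {z : AT ρ σ α a b' c' q} :
    cjA ρ σ α q h z ∈ stab ρ σ α q h ↔ z ∈ stab0 ρ σ α a b' c' q := by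
  have key : ∀ y : OctL E a b' c', tQ E h (tripO E h y) = tripO E h (t0 E a b' c' y) := by
    intro y
    change tripO E h (t0 E a b' c' ((tripO E h).symm (tripO E h y))) = _
    rw [LinearEquiv.symm_apply_apply]
  constructor
  · intro hz y
    have hz' : cjE (tripO E h) z.1 * tQ E h = tQ E h * cjE (tripO E h) z.1 := hz
    have h1 := congrArg (fun f : OctL E a b c ≃ₗ[E] OctL E a b c => f (tripO E h y)) hz'
    change cjE (tripO E h) z.1 (tQ E h (tripO E h y)) =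
      tQ E h (cjE (tripO E h) z.1 (tripO E h y)) at h1
    rw [key, cj_apply, cj_apply, key] at h1
    exact (tripO E h).injective h1
  · intro hz
    change cjE (tripO E h) z.1 * tQ E h = tQ E h * cjE (tripO E h) z.1
    apply LinearEquiv.ext
    intro x
    obtain ⟨y, rfl⟩ := (tripO E h).surjective x
    change cjE (tripO E h) z.1 (tQ E h (tripO E h y)) =
      tQ E h (cjE (tripO E h) z.1 (tripO E h y))
    rw [key, cj_apply, cj_apply, key, hz]

theorem exists_of_mem_stab {z : AT ρ σ α a b c q} (hz : z ∈ stab ρ σ α q h) :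
    ∃ z' ∈ stab0 ρ σ α a b' c' q, cjA ρ σ α q h z' = z := by
  refine ⟨(cjA ρ σ α q h).symm z, ?_, (cjA ρ σ α q h).apply_symm_apply z⟩
  rw [← cjA_mem_stab h, MulEquiv.apply_symm_apply]
  exact hz

end H691

end Vale.Agent.P011.D4X
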